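import Vale.Agent.P181.DG.Defs

set_option autoImplicit false

/-!
# P181, WA: Foulkes' inequality for all `a < b` and all partitions with `ab - λ₁ ≤ 2a - 1`
-/

open MvPolynomial

namespace Vale.Agent.P181.WA

open Vale.Agent.P181.H280 (plethMult)
open Vale.Agent.P181.SZ (TI tl)
open Vale.Agent.P181.PL (dn)
open Vale.Agent.P181.DG (NT PKT)

/-- **(W1)** stability in the number of small columns. -/
def StabT : Prop := ∀ (n S : ℕ) (mu : Fin n → ℕ) (kap : Multiset ℕ) (t : ℕ), 1 ≤ S →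
  ∑ i, mu i ≤ kap.sum + t → NT n S mu kap (t + 1) ≤ NT n S mu kap t

/-- **(W2)** the norm map. -/
def NormT : Prop := ∀ (n S m W : ℕ) (mu : Fin n → ℕ), 1 ≤ S → ∑ i, mu i + 3 ≤ 2 * m →
  ∑ i, mu i ≤ W →
  NT n S mu {m} m + Module.finrank ℂ (TI (m - 1) W n mu) ≤ Module.finrank ℂ (TI m W n mu)

/-- **(W3)** the theorem. -/
def WideS : Prop := ∀ a b : ℕ, a < b → ∀ (n : ℕ) (lam : Fin n → ℕ), dn lam 1 + 1 ≤ 2 * a →
  plethMult a b n lam ≤ plethMult b a n lam

end Vale.Agent.P181.WA
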